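import Vale.Agent.P333.H14.Iv

namespace Vale.Agent.P333.H14

open Finset

/-- Far charging, left side. -/
theorem far_left {ι : Type*} [DecidableEq ι] (LL : Finset ι) (L R w o : ι → ℕ) (n : ℕ)
    (hLR : ∀ i ∈ LL, L i ≤ R i) (hRn : ∀ i ∈ LL, R i ≤ n)
    (hnn : ∀ i ∈ LL, ∀ j ∈ LL, i ≠ j → L i ≤ L j → L i < L j ∧ R i < R j)
    (hov : ∀ i ∈ LL, ∀ j ∈ LL, i ≠ j → L i ≤ L j → R i ≤ L j + (w i + w j))
    (hw : ∀ i ∈ LL, 10 ^ 7 * w i ≤ o i) (ho : ∀ i ∈ LL, o i ≤ R i - L i)
    (FL : Finset ι) (hFL : FL ⊆ LL) (p q : ι → ℕ)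
    (hu : ∀ i ∈ FL, 0 < R i - L i)
    (hp : ∀ i ∈ FL, p i + 50 * (R i - L i) ≤ L i)
    (hq : ∀ i ∈ FL, 100 * L i + 99 * (R i - L i) ≤ 100 * q i)
    (hno : ∀ i ∈ FL, ∀ j ∈ LL, ¬ (p i ≤ L j ∧ R j ≤ q i)) :
    50 * ∑ i ∈ FL, (R i - L i) ≤ ∑ i ∈ LL, (R i - L i) +
      (range n \ LL.biUnion fun i => Ico (L i) (R i)).card := by
  classical
  -- main claim
  have main : ∀ F ∈ FL, ∀ G ∈ LL, L G < L F → L G + 50 * (R F - L F) ≤ L F := by
    intro F hF G hG hlt
    by_contra hcon
    have hFL' := hFL hF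
    have h1 := hp F hF
    have h2 := hq F hF
    have h3 := hno F hF G hG
    have h4 := hov G hG F hFL' (by rintro rfl; omega) hlt.le
    have h5 := hw F hFL'
    have h6 := hw G hG
    have h7 := ho F hFL'
    have h8 := ho G hG
    have h9 := hu F hF
    have h10 := hLR G hG
    have h11 := hLR F hFL'
    norm_num at h5 h6
    have h12 : q F < R G := by
      by_contra h
      exact h3 ⟨by omega, by omega⟩
    omega
  set V : ι → Finset ι := fun F =>
    LL.filter fun G => L G < L F ∧ ∀ G' ∈ LL, L G' < L F → L G' ≤ L G with hV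
  have hVne : ∀ F, ∀ G ∈ LL, L G < L F → (V F).Nonempty := by
    intro F G hG hlt
    obtain ⟨m, hm, hmm⟩ := Finset.exists_max_image (LL.filter fun G => L G < L F) L
      ⟨G, Finset.mem_filter.2 ⟨hG, hlt⟩⟩
    rw [Finset.mem_filter] at hm
    refine ⟨m, Finset.mem_filter.2 ⟨hm.1, hm.2, fun G' hG' hlt' => ?_⟩⟩
    exact hmm G' (Finset.mem_filter.2 ⟨hG', hlt'⟩)
  have hV1 : ∀ F, ∀ G ∈ V F, G ∈ LL ∧ L G < L F ∧ ∀ G' ∈ LL, L G' < L F → L G' ≤ L G := by
    intro F G hG
    exact Finset.mem_filter.1 hG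
  set UU := LL.biUnion fun i => Ico (L i) (R i) with hUU
  set W : ι → Finset ℕ := fun F => Ico (L F - 50 * (R F - L F)) (L F) \ UU with hW
  have hRmono : ∀ i ∈ LL, ∀ j ∈ LL, L i ≤ L j → R i ≤ R j := by
    intro i hi j hj hle
    by_cases hij : i = j
    · rw [hij]
    · exact (hnn i hi j hj hij hle).2.le
  -- bound for one F
  have hone : ∀ F ∈ FL, 50 * (R F - L F) ≤ ∑ G ∈ V F, (R G - L G) + (W F).card := by
    intro F hF
    have h1 := hp F hF
    have hsub : Ico (L F - 50 * (R F - L F)) (L F) ⊆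
        ((V F).biUnion fun i => Ico (L i) (R i)) ∪ W F := by
      intro x hx
      rw [Finset.mem_union]
      by_cases hxU : x ∈ UU
      · left
        rw [hUU, Finset.mem_biUnion] at hxU
        obtain ⟨G', hG', hxG'⟩ := hxU
        rw [Finset.mem_Ico] at hx hxG'
        obtain ⟨G, hG⟩ := hVne F G' hG' (by omega)
        obtain ⟨hGL, hGlt, hGm⟩ := hV1 F G hG
        have h2 := main F hF G hGL hGlt
        have h3 := hRmono G' hG' G hGL (hGm G' hG' (by omega))
        rw [Finset.mem_biUnion]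
        exact ⟨G, hG, Finset.mem_Ico.2 ⟨by omega, by omega⟩⟩
      · right
        rw [hW]
        exact Finset.mem_sdiff.2 ⟨hx, hxU⟩
    have hc := Finset.card_le_card hsub
    have hc2 := Finset.card_union_le ((V F).biUnion fun i => Ico (L i) (R i)) (W F)
    have hc3 : ((V F).biUnion fun i => Ico (L i) (R i)).card ≤ ∑ G ∈ V F, (R G - L G) := by
      refine le_trans Finset.card_biUnion_le ?_
      simp
    rw [Nat.card_Ico] at hc
    omega
  -- distinct members of FL have distinct left ends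
  have hLne : ∀ F ∈ FL, ∀ G ∈ FL, F ≠ G → L F < L G ∨ L G < L F := by
    intro F hF G hG hne
    rcases le_total (L F) (L G) with h | h
    · exact Or.inl (hnn F (hFL hF) G (hFL hG) hne h).1
    · exact Or.inr (hnn G (hFL hG) F (hFL hF) hne.symm h).1
  have hdisV0 : ∀ F ∈ FL, ∀ G ∈ FL, L F < L G → Disjoint (V F) (V G) := by
    intro F hF G hG hlt
    rw [Finset.disjoint_left]
    intro x hx hx2
    have h1 := hV1 F x hx
    have h2 := (hV1 G x hx2).2.2 F (hFL hF) hlt
    omega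
  have hdisV : (FL : Set ι).PairwiseDisjoint V := by
    intro F hF G hG hne
    rcases hLne F hF G hG hne with h | h
    · exact hdisV0 F hF G hG h
    · exact (hdisV0 G hG F hF h).symm
  have hdisW0 : ∀ F ∈ FL, ∀ G ∈ FL, L F < L G → Disjoint (W F) (W G) := by
    intro F hF G hG hlt
    rw [Finset.disjoint_left]
    intro x hx hx2
    rw [hW] at hx hx2
    have hx1 := (Finset.mem_sdiff.1 hx).1
    have hx3 := (Finset.mem_sdiff.1 hx2).1
    rw [Finset.mem_Ico] at hx1 hx3
    obtain ⟨K, hK⟩ := hVne G F (hFL hF) hlt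
    obtain ⟨hKL, hKlt, hKm⟩ := hV1 G K hK
    have h1 := main G hG K hKL hKlt
    have h2 := hKm F (hFL hF) hlt
    omega
  have hdisW : (FL : Set ι).PairwiseDisjoint W := by
    intro F hF G hG hne
    rcases hLne F hF G hG hne with h | h
    · exact hdisW0 F hF G hG h
    · exact (hdisW0 G hG F hF h).symm
  have hsumV : ∑ F ∈ FL, ∑ G ∈ V F, (R G - L G) ≤ ∑ G ∈ LL, (R G - L G) := by
    rw [← Finset.sum_biUnion hdisV]
    apply Finset.sum_le_sum_of_subset
    intro x hx
    rw [Finset.mem_biUnion] at hx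
    obtain ⟨F, _, hxF⟩ := hx
    exact (hV1 F x hxF).1
  have hsumW : ∑ F ∈ FL, (W F).card ≤ (range n \ UU).card := by
    rw [← Finset.card_biUnion (fun F hF G hG hne => hdisW hF hG hne)]
    apply Finset.card_le_card
    intro x hx
    rw [Finset.mem_biUnion] at hx
    obtain ⟨F, hF, hxF⟩ := hx
    rw [hW] at hxF
    have h1 := Finset.mem_sdiff.1 hxF
    rw [Finset.mem_Ico] at h1
    have h2 := hLR F (hFL hF)
    have h3 := hRn F (hFL hF)
    exact Finset.mem_sdiff.2 ⟨Finset.mem_range.2 (by omega), h1.2⟩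
  calc 50 * ∑ i ∈ FL, (R i - L i) = ∑ i ∈ FL, 50 * (R i - L i) := by rw [Finset.mul_sum]
    _ ≤ ∑ F ∈ FL, (∑ G ∈ V F, (R G - L G) + (W F).card) := Finset.sum_le_sum hone
    _ = ∑ F ∈ FL, ∑ G ∈ V F, (R G - L G) + ∑ F ∈ FL, (W F).card := Finset.sum_add_distrib
    _ ≤ _ := Nat.add_le_add hsumV hsumW

/-- Reflection of the complement of a union of intervals. -/
theorem card_compl_reflect {ι : Type*} [DecidableEq ι] (LL : Finset ι) (L R : ι → ℕ) (n : ℕ)
    (hLR : ∀ i ∈ LL, L i ≤ R i) (hRn : ∀ i ∈ LL, R i ≤ n) :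
    (range n \ LL.biUnion fun i => Ico (n - R i) (n - L i)).card =
      (range n \ LL.biUnion fun i => Ico (L i) (R i)).card := by
  classical
  refine Finset.card_bij' (fun x _ => n - 1 - x) (fun x _ => n - 1 - x) ?_ ?_ ?_ ?_
  · intro x hx
    rw [Finset.mem_sdiff, Finset.mem_range] at hx ⊢
    refine ⟨by omega, fun h => hx.2 ?_⟩
    rw [Finset.mem_biUnion] at h ⊢
    obtain ⟨i, hi, hxi⟩ := h
    rw [Finset.mem_Ico] at hxi
    have := hLR i hi
    have := hRn i hi
    exact ⟨i, hi, Finset.mem_Ico.2 ⟨by omega, by omega⟩⟩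
  · intro x hx
    rw [Finset.mem_sdiff, Finset.mem_range] at hx ⊢
    refine ⟨by omega, fun h => hx.2 ?_⟩
    rw [Finset.mem_biUnion] at h ⊢
    obtain ⟨i, hi, hxi⟩ := h
    rw [Finset.mem_Ico] at hxi
    have := hLR i hi
    have := hRn i hi
    exact ⟨i, hi, Finset.mem_Ico.2 ⟨by omega, by omega⟩⟩
  · intro x hx
    rw [Finset.mem_sdiff, Finset.mem_range] at hx
    show n - 1 - (n - 1 - x) = x
    omega
  · intro x hx
    rw [Finset.mem_sdiff, Finset.mem_range] at hx
    show n - 1 - (n - 1 - x) = x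
    omega

/-- Far charging, right side. -/
theorem far_right {ι : Type*} [DecidableEq ι] (LL : Finset ι) (L R w o : ι → ℕ) (n : ℕ)
    (hLR : ∀ i ∈ LL, L i ≤ R i) (hRn : ∀ i ∈ LL, R i ≤ n)
    (hnn : ∀ i ∈ LL, ∀ j ∈ LL, i ≠ j → L i ≤ L j → L i < L j ∧ R i < R j)
    (hov : ∀ i ∈ LL, ∀ j ∈ LL, i ≠ j → L i ≤ L j → R i ≤ L j + (w i + w j))
    (hw : ∀ i ∈ LL, 10 ^ 7 * w i ≤ o i) (ho : ∀ i ∈ LL, o i ≤ R i - L i)
    (FR : Finset ι) (hFR : FR ⊆ LL) (p q : ι → ℕ)
    (hu : ∀ i ∈ FR, 0 < R i - L i) (hqn : ∀ i ∈ FR, q i ≤ n)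
    (hq : ∀ i ∈ FR, R i + 50 * (R i - L i) ≤ q i)
    (hp : ∀ i ∈ FR, 100 * p i + 99 * (R i - L i) ≤ 100 * R i)
    (hno : ∀ i ∈ FR, ∀ j ∈ LL, ¬ (p i ≤ L j ∧ R j ≤ q i)) :
    50 * ∑ i ∈ FR, (R i - L i) ≤ ∑ i ∈ LL, (R i - L i) +
      (range n \ LL.biUnion fun i => Ico (L i) (R i)).card := by
  classical
  have key := far_left LL (fun i => n - R i) (fun i => n - L i) w o n
    (fun i hi => by have := hLR i hi; have := hRn i hi; show n - R i ≤ n - L i; omega)
    (fun i hi => Nat.sub_le _ _)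
    (fun i hi j hj hij hle => by
      have h1 := hLR i hi; have h2 := hRn i hi; have h3 := hLR j hj; have h4 := hRn j hj
      have hle' : n - R i ≤ n - R j := hle
      have h5 : L j ≤ L i := by
        by_contra hc
        have := (hnn i hi j hj hij (by omega)).2
        omega
      have h6 := hnn j hj i hi (Ne.symm hij) h5
      show n - R i < n - R j ∧ n - L i < n - L j
      omega)
    (fun i hi j hj hij hle => by
      have h1 := hLR i hi; have h2 := hRn i hi; have h3 := hLR j hj; have h4 := hRn j hj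
      have hle' : n - R i ≤ n - R j := hle
      have h5 : L j ≤ L i := by
        by_contra hc
        have := (hnn i hi j hj hij (by omega)).2
        omega
      have h6 := hov j hj i hi (Ne.symm hij) h5
      show n - L i ≤ n - R j + (w i + w j)
      omega)
    hw
    (fun i hi => by
      have h1 := hLR i hi; have h2 := hRn i hi; have h3 := ho i hi
      show o i ≤ (n - L i) - (n - R i)
      omega)
    FR hFR (fun i => n - q i) (fun i => n - p i)
    (fun i hi => by
      have h1 := hLR i (hFR hi); have h2 := hRn i (hFR hi); have h3 := hu i hi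
      show 0 < (n - L i) - (n - R i)
      omega)
    (fun i hi => by
      have h1 := hLR i (hFR hi); have h2 := hRn i (hFR hi); have h3 := hu i hi
      have h4 := hq i hi; have h5 := hqn i hi
      show n - q i + 50 * ((n - L i) - (n - R i)) ≤ n - R i
      omega)
    (fun i hi => by
      have h1 := hLR i (hFR hi); have h2 := hRn i (hFR hi); have h3 := hu i hi
      have h4 := hp i hi; have h5 := hqn i hi
      show 100 * (n - R i) + 99 * ((n - L i) - (n - R i)) ≤ 100 * (n - p i)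
      omega)
    (fun i hi j hj hc => by
      have h1 := hLR j hj; have h2 := hRn j hj
      have h3 := hLR i (hFR hi); have h4 := hRn i (hFR hi)
      have h5 := hp i hi; have h6 := hqn i hi
      have hc1 : n - q i ≤ n - R j := hc.1
      have hc2 : n - L j ≤ n - p i := hc.2
      exact hno i hi j hj ⟨by omega, by omega⟩)
  have e1 : ∀ S : Finset ι, S ⊆ LL →
      ∑ i ∈ S, ((n - L i) - (n - R i)) = ∑ i ∈ S, (R i - L i) := by
    intro S hS
    apply Finset.sum_congr rfl
    intro i hi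
    have h1 := hLR i (hS hi); have h2 := hRn i (hS hi)
    omega
  have e2 := card_compl_reflect LL L R n hLR hRn
  have key' : 50 * ∑ i ∈ FR, ((n - L i) - (n - R i)) ≤ ∑ i ∈ LL, ((n - L i) - (n - R i)) +
      (range n \ LL.biUnion fun i => Ico (n - R i) (n - L i)).card := key
  rw [e1 FR hFR, e1 LL (Finset.Subset.refl _), e2] at key'
  exact key'

/-- Far charging: every far `i` has a server `[p i, q i)` that covers 99% of `[L i, R i)`, is at least
99 times as long, and contains no member of the family. -/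
theorem far_total {ι : Type*} [DecidableEq ι] (LL : Finset ι) (L R w o : ι → ℕ) (n : ℕ)
    (hLR : ∀ i ∈ LL, L i ≤ R i) (hRn : ∀ i ∈ LL, R i ≤ n)
    (hnn : ∀ i ∈ LL, ∀ j ∈ LL, i ≠ j → L i ≤ L j → L i < L j ∧ R i < R j)
    (hov : ∀ i ∈ LL, ∀ j ∈ LL, i ≠ j → L i ≤ L j → R i ≤ L j + (w i + w j))
    (hw : ∀ i ∈ LL, 10 ^ 7 * w i ≤ o i) (ho : ∀ i ∈ LL, o i ≤ R i - L i)
    (FF : Finset ι) (hFF : FF ⊆ LL) (p q : ι → ℕ)
    (hu : ∀ i ∈ FF, 0 < R i - L i) (hqn : ∀ i ∈ FF, q i ≤ n)
    (hlen : ∀ i ∈ FF, 99 * (R i - L i) ≤ q i - p i)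
    (hserve : ∀ i ∈ FF, 99 * (R i - L i) ≤ 100 * (min (q i) (R i) - max (p i) (L i)))
    (hno : ∀ i ∈ FF, ∀ j ∈ LL, ¬ (p i ≤ L j ∧ R j ≤ q i)) :
    25 * ∑ i ∈ FF, (R i - L i) ≤ ∑ i ∈ LL, (R i - L i) +
      (range n \ LL.biUnion fun i => Ico (L i) (R i)).card := by
  classical
  have hl := far_left LL L R w o n hLR hRn hnn hov hw ho (FF.filter fun i => p i ≤ L i)
    ((Finset.filter_subset _ _).trans hFF) p q
    (fun i hi => hu i (Finset.mem_filter.1 hi).1)
    (fun i hi => by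
      obtain ⟨hi1, hi2⟩ := Finset.mem_filter.1 hi
      have h1 := hu i hi1; have h2 := hlen i hi1; have h3 := hno i hi1 i (hFF hi1)
      have h4 : q i < R i := by
        by_contra hc
        exact h3 ⟨hi2, by omega⟩
      omega)
    (fun i hi => by
      obtain ⟨hi1, hi2⟩ := Finset.mem_filter.1 hi
      have h1 := hu i hi1; have h2 := hserve i hi1
      rw [max_eq_right hi2] at h2
      have h3 := min_le_left (q i) (R i)
      omega)
    (fun i hi => hno i (Finset.mem_filter.1 hi).1)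
  have hr := far_right LL L R w o n hLR hRn hnn hov hw ho (FF.filter fun i => ¬ p i ≤ L i)
    ((Finset.filter_subset _ _).trans hFF) p q
    (fun i hi => hu i (Finset.mem_filter.1 hi).1)
    (fun i hi => hqn i (Finset.mem_filter.1 hi).1)
    (fun i hi => by
      obtain ⟨hi1, hi2⟩ := Finset.mem_filter.1 hi
      have h1 := hu i hi1; have h2 := hlen i hi1; have h4 := hserve i hi1
      have h3 := min_le_right (q i) (R i)
      have h5 := le_max_left (p i) (L i)
      omega)
    (fun i hi => by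
      obtain ⟨hi1, hi2⟩ := Finset.mem_filter.1 hi
      have h1 := hu i hi1; have h2 := hserve i hi1
      have h3 := min_le_right (q i) (R i)
      have h5 := le_max_left (p i) (L i)
      omega)
    (fun i hi => hno i (Finset.mem_filter.1 hi).1)
  have hsplit := Finset.sum_filter_add_sum_filter_not FF (fun i => p i ≤ L i) (fun i => R i - L i)
  omega

end Vale.Agent.P333.H14
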