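import Mathlib

namespace Vale.Agent.P333.H14

open Finset

/-- Far charging, left side, by disjoint intervals (delta = 1/10, servers of length at least 90 u). -/
theorem far2_left {ι : Type*} [DecidableEq ι] (LL : Finset ι) (L R w o : ι → ℕ) (n : ℕ)
    (hLR : ∀ i ∈ LL, L i ≤ R i) (hRn : ∀ i ∈ LL, R i ≤ n)
    (hnn : ∀ i ∈ LL, ∀ j ∈ LL, i ≠ j → L i ≤ L j → L i < L j ∧ R i < R j)
    (hov : ∀ i ∈ LL, ∀ j ∈ LL, i ≠ j → L i ≤ L j → R i ≤ L j + (w i + w j))
    (hw : ∀ i ∈ LL, 10 ^ 7 * w i ≤ o i) (ho : ∀ i ∈ LL, o i ≤ R i - L i)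
    (FL : Finset ι) (hFL : FL ⊆ LL) (p q : ι → ℕ)
    (hu : ∀ i ∈ FL, 0 < R i - L i)
    (hp : ∀ i ∈ FL, p i + 89 * (R i - L i) ≤ L i)
    (hq : ∀ i ∈ FL, 10 * L i + 9 * (R i - L i) ≤ 10 * q i)
    (hno : ∀ i ∈ FL, ∀ j ∈ LL, ¬ (p i ≤ L j ∧ R j ≤ q i)) :
    89 * ∑ i ∈ FL, (R i - L i) ≤ n := by
  classical
  have main : ∀ F ∈ FL, ∀ G ∈ LL, L G < L F → L G + 89 * (R F - L F) ≤ L F := by
    intro F hF G hG hlt
    by_contra hcon
    have hFL' := hFL hF
    have h1 := hp F hF
    have h2 := hq F hF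
    have h3 := hno F hF G hG
    have h4 := hov G hG F hFL' (by rintro rfl; omega) hlt.le
    have h5 := hw F hFL'
    have h6 := hw G hG
    have h7 := ho F hFL'
    have h8 := ho G hG
    have h9 := hu F hF
    have h10 := hLR G hG
    have h11 := hLR F hFL'
    norm_num at h5 h6
    have h12 : q F < R G := by
      by_contra h
      exact h3 ⟨by omega, by omega⟩
    omega
  have hdis0 : ∀ F ∈ FL, ∀ G ∈ FL, L F < L G →
      Disjoint (Ico (L F - 89 * (R F - L F)) (L F)) (Ico (L G - 89 * (R G - L G)) (L G)) := by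
    intro F hF G hG hlt
    rw [Finset.disjoint_left]
    intro x hx hx2
    rw [Finset.mem_Ico] at hx hx2
    have h1 := main G hG F (hFL hF) hlt
    omega
  have hdis : (FL : Set ι).PairwiseDisjoint fun F => Ico (L F - 89 * (R F - L F)) (L F) := by
    intro F hF G hG hne
    rcases le_total (L F) (L G) with h | h
    · exact hdis0 F hF G hG (hnn F (hFL hF) G (hFL hG) hne h).1
    · exact (hdis0 G hG F hF (hnn G (hFL hG) F (hFL hF) hne.symm h).1).symm
  have hcard : ∑ F ∈ FL, (Ico (L F - 89 * (R F - L F)) (L F)).card ≤ (range n).card := by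
    rw [← Finset.card_biUnion (fun F hF G hG hne => hdis hF hG hne)]
    apply Finset.card_le_card
    intro x hx
    rw [Finset.mem_biUnion] at hx
    obtain ⟨F, hF, hxF⟩ := hx
    rw [Finset.mem_Ico] at hxF
    have h2 := hLR F (hFL hF)
    have h3 := hRn F (hFL hF)
    exact Finset.mem_range.2 (by omega)
  rw [Finset.card_range] at hcard
  rw [Finset.mul_sum]
  refine le_trans (Finset.sum_le_sum fun F hF => ?_) hcard
  rw [Nat.card_Ico]
  have := hp F hF
  omega

/-- Far charging, right side. -/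
theorem far2_right {ι : Type*} [DecidableEq ι] (LL : Finset ι) (L R w o : ι → ℕ) (n : ℕ)
    (hLR : ∀ i ∈ LL, L i ≤ R i) (hRn : ∀ i ∈ LL, R i ≤ n)
    (hnn : ∀ i ∈ LL, ∀ j ∈ LL, i ≠ j → L i ≤ L j → L i < L j ∧ R i < R j)
    (hov : ∀ i ∈ LL, ∀ j ∈ LL, i ≠ j → L i ≤ L j → R i ≤ L j + (w i + w j))
    (hw : ∀ i ∈ LL, 10 ^ 7 * w i ≤ o i) (ho : ∀ i ∈ LL, o i ≤ R i - L i)
    (FR : Finset ι) (hFR : FR ⊆ LL) (p q : ι → ℕ)
    (hu : ∀ i ∈ FR, 0 < R i - L i) (hqn : ∀ i ∈ FR, q i ≤ n)
    (hq : ∀ i ∈ FR, R i + 89 * (R i - L i) ≤ q i)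
    (hp : ∀ i ∈ FR, 10 * p i + 9 * (R i - L i) ≤ 10 * R i)
    (hno : ∀ i ∈ FR, ∀ j ∈ LL, ¬ (p i ≤ L j ∧ R j ≤ q i)) :
    89 * ∑ i ∈ FR, (R i - L i) ≤ n := by
  classical
  have main : ∀ F ∈ FR, ∀ G ∈ LL, L F < L G → R F + 89 * (R F - L F) ≤ R G := by
    intro F hF G hG hlt
    by_contra hcon
    have hFR' := hFR hF
    have h1 := hp F hF
    have h2 := hq F hF
    have h3 := hno F hF G hG
    have hne : F ≠ G := by rintro rfl; omega
    have h4 := hov F hFR' G hG hne hlt.le
    have h4' := hnn F hFR' G hG hne hlt.le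
    have h5 := hw F hFR'
    have h6 := hw G hG
    have h7 := ho F hFR'
    have h8 := ho G hG
    have h9 := hu F hF
    have h10 := hLR G hG
    have h11 := hLR F hFR'
    norm_num at h5 h6
    have h12 : L G < p F := by
      by_contra h
      exact h3 ⟨by omega, by omega⟩
    omega
  have hdis0 : ∀ F ∈ FR, ∀ G ∈ FR, L F < L G →
      Disjoint (Ico (R F) (R F + 89 * (R F - L F))) (Ico (R G) (R G + 89 * (R G - L G))) := by
    intro F hF G hG hlt
    rw [Finset.disjoint_left]
    intro x hx hx2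
    rw [Finset.mem_Ico] at hx hx2
    have h1 := main F hF G (hFR hG) hlt
    omega
  have hdis : (FR : Set ι).PairwiseDisjoint fun F => Ico (R F) (R F + 89 * (R F - L F)) := by
    intro F hF G hG hne
    rcases le_total (L F) (L G) with h | h
    · exact hdis0 F hF G hG (hnn F (hFR hF) G (hFR hG) hne h).1
    · exact (hdis0 G hG F hF (hnn G (hFR hG) F (hFR hF) hne.symm h).1).symm
  have hcard : ∑ F ∈ FR, (Ico (R F) (R F + 89 * (R F - L F))).card ≤ (range n).card := by
    rw [← Finset.card_biUnion (fun F hF G hG hne => hdis hF hG hne)]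
    apply Finset.card_le_card
    intro x hx
    rw [Finset.mem_biUnion] at hx
    obtain ⟨F, hF, hxF⟩ := hx
    rw [Finset.mem_Ico] at hxF
    have h2 := hq F hF
    have h3 := hqn F hF
    exact Finset.mem_range.2 (by omega)
  rw [Finset.card_range] at hcard
  rw [Finset.mul_sum]
  refine le_trans (Finset.sum_le_sum fun F hF => ?_) hcard
  rw [Nat.card_Ico]
  omega

/-- Far charging: every far `i` has a server `[p i, q i)` that covers 9/10 of `[L i, R i)`, is at least
90 times as long, and contains no member of the family. -/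
theorem far2_total {ι : Type*} [DecidableEq ι] (LL : Finset ι) (L R w o : ι → ℕ) (n : ℕ)
    (hLR : ∀ i ∈ LL, L i ≤ R i) (hRn : ∀ i ∈ LL, R i ≤ n)
    (hnn : ∀ i ∈ LL, ∀ j ∈ LL, i ≠ j → L i ≤ L j → L i < L j ∧ R i < R j)
    (hov : ∀ i ∈ LL, ∀ j ∈ LL, i ≠ j → L i ≤ L j → R i ≤ L j + (w i + w j))
    (hw : ∀ i ∈ LL, 10 ^ 7 * w i ≤ o i) (ho : ∀ i ∈ LL, o i ≤ R i - L i)
    (FF : Finset ι) (hFF : FF ⊆ LL) (p q : ι → ℕ)
    (hu : ∀ i ∈ FF, 0 < R i - L i) (hqn : ∀ i ∈ FF, q i ≤ n)
    (hlen : ∀ i ∈ FF, 90 * (R i - L i) ≤ q i - p i)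
    (hserve : ∀ i ∈ FF, 9 * (R i - L i) ≤ 10 * (min (q i) (R i) - max (p i) (L i)))
    (hno : ∀ i ∈ FF, ∀ j ∈ LL, ¬ (p i ≤ L j ∧ R j ≤ q i)) :
    89 * ∑ i ∈ FF, (R i - L i) ≤ 2 * n := by
  classical
  have hl := far2_left LL L R w o n hLR hRn hnn hov hw ho (FF.filter fun i => p i ≤ L i)
    ((Finset.filter_subset _ _).trans hFF) p q
    (fun i hi => hu i (Finset.mem_filter.1 hi).1)
    (fun i hi => by
      obtain ⟨hi1, hi2⟩ := Finset.mem_filter.1 hi
      have h1 := hu i hi1; have h2 := hlen i hi1; have h3 := hno i hi1 i (hFF hi1)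
      have h4 : q i < R i := by
        by_contra hc
        exact h3 ⟨hi2, by omega⟩
      omega)
    (fun i hi => by
      obtain ⟨hi1, hi2⟩ := Finset.mem_filter.1 hi
      have h1 := hu i hi1; have h2 := hserve i hi1
      rw [max_eq_right hi2] at h2
      have h3 := min_le_left (q i) (R i)
      omega)
    (fun i hi => hno i (Finset.mem_filter.1 hi).1)
  have hr := far2_right LL L R w o n hLR hRn hnn hov hw ho (FF.filter fun i => ¬ p i ≤ L i)
    ((Finset.filter_subset _ _).trans hFF) p q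
    (fun i hi => hu i (Finset.mem_filter.1 hi).1)
    (fun i hi => hqn i (Finset.mem_filter.1 hi).1)
    (fun i hi => by
      obtain ⟨hi1, hi2⟩ := Finset.mem_filter.1 hi
      have h1 := hu i hi1; have h2 := hlen i hi1; have h4 := hserve i hi1
      have h3 := min_le_right (q i) (R i)
      have h5 := le_max_left (p i) (L i)
      omega)
    (fun i hi => by
      obtain ⟨hi1, hi2⟩ := Finset.mem_filter.1 hi
      have h1 := hu i hi1; have h2 := hserve i hi1
      have h3 := min_le_right (q i) (R i)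
      have h5 := le_max_left (p i) (L i)
      omega)
    (fun i hi => hno i (Finset.mem_filter.1 hi).1)
  have hsplit := Finset.sum_filter_add_sum_filter_not FF (fun i => p i ≤ L i) (fun i => R i - L i)
  omega

/-- UNION-SUM with an arbitrary set `D` (version keeping the last weight). -/
theorem union_sum_aux {ι : Type*} [DecidableEq ι] (a b w : ι → ℕ) (D : Finset ℕ) :
    ∀ (S : Finset ι),
      (∀ i ∈ S, ∀ j ∈ S, i ≠ j → a i ≤ a j → a i < a j ∧ b i < b j) →
      (∀ i ∈ S, ∀ j ∈ S, i ≠ j → a i ≤ a j → b i ≤ a j + (w i + w j)) →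
      ∀ j ∈ S, (∀ i ∈ S, a i ≤ a j) →
      ∑ i ∈ S, (Ico (a i) (b i) ∩ D).card + w j ≤
        ((S.biUnion fun i => Ico (a i) (b i)) ∩ D).card + 2 * ∑ i ∈ S, w i := by
  intro S
  induction S using Finset.strongInduction with
  | H S ih =>
    intro hnn hov j hj hmax
    have hSe : S = insert j (S.erase j) := (Finset.insert_erase hj).symm
    have hnot : j ∉ S.erase j := Finset.notMem_erase j S
    rw [hSe, Finset.sum_insert hnot, Finset.sum_insert hnot, Finset.biUnion_insert]
    rcases (S.erase j).eq_empty_or_nonempty with he | hne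
    · rw [he]
      simp only [Finset.sum_empty, Finset.biUnion_empty, Finset.union_empty]
      omega
    · obtain ⟨p, hp, hpm⟩ := Finset.exists_max_image (S.erase j) a hne
      have hpS : p ∈ S := Finset.mem_of_mem_erase hp
      have hpj : p ≠ j := Finset.ne_of_mem_erase hp
      have hss : S.erase j ⊂ S := Finset.erase_ssubset hj
      have h1 := ih (S.erase j) hss
        (fun i hi k hk => hnn i (Finset.mem_of_mem_erase hi) k (Finset.mem_of_mem_erase hk))
        (fun i hi k hk => hov i (Finset.mem_of_mem_erase hi) k (Finset.mem_of_mem_erase hk))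
        p hp hpm
      obtain ⟨hlt, hblt⟩ := hnn p hpS j hj hpj (hmax p hpS)
      have hovp := hov p hpS j hj hpj (hmax p hpS)
      set V := (S.erase j).biUnion fun i => Ico (a i) (b i) with hV
      have hsub : (Ico (a j) (b j) ∩ D) ⊆ ((Ico (a j) (b j) ∩ D) \ V) ∪ Ico (a j) (b p) := by
        intro x hx
        rw [Finset.mem_union]
        by_cases hxV : x ∈ V
        · right
          rw [hV, Finset.mem_biUnion] at hxV
          obtain ⟨i, hi, hxi⟩ := hxV
          have hx1 := (Finset.mem_inter.1 hx).1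
          rw [Finset.mem_Ico] at hx1 hxi ⊢
          have hbi : b i ≤ b p := by
            by_cases hip : i = p
            · rw [hip]
            · exact le_of_lt (hnn i (Finset.mem_of_mem_erase hi) p hpS hip (hpm i hi)).2
          omega
        · left
          exact Finset.mem_sdiff.2 ⟨hx, hxV⟩
      have hc1 := Finset.card_le_card hsub
      have hc2 := Finset.card_union_le ((Ico (a j) (b j) ∩ D) \ V) (Ico (a j) (b p))
      rw [Nat.card_Ico] at hc2
      have hsub2 : ((Ico (a j) (b j) ∩ D) \ V) ∪ (V ∩ D) ⊆ (Ico (a j) (b j) ∪ V) ∩ D := by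
        intro x hx
        rw [Finset.mem_union, Finset.mem_sdiff, Finset.mem_inter, Finset.mem_inter] at hx
        rw [Finset.mem_inter, Finset.mem_union]
        tauto
      have hdis : Disjoint ((Ico (a j) (b j) ∩ D) \ V) (V ∩ D) := by
        rw [Finset.disjoint_left]
        intro x hx hx2
        exact (Finset.mem_sdiff.1 hx).2 (Finset.mem_inter.1 hx2).1
      have hc3 := Finset.card_le_card hsub2
      rw [Finset.card_union_of_disjoint hdis] at hc3
      omega

/-- UNION-SUM. -/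
theorem union_sum {ι : Type*} [DecidableEq ι] (a b w : ι → ℕ) (D : Finset ℕ) (S : Finset ι)
    (hnn : ∀ i ∈ S, ∀ j ∈ S, i ≠ j → a i ≤ a j → a i < a j ∧ b i < b j)
    (hov : ∀ i ∈ S, ∀ j ∈ S, i ≠ j → a i ≤ a j → b i ≤ a j + (w i + w j)) :
    ∑ i ∈ S, (Ico (a i) (b i) ∩ D).card ≤
      ((S.biUnion fun i => Ico (a i) (b i)) ∩ D).card + 2 * ∑ i ∈ S, w i := by
  rcases S.eq_empty_or_nonempty with he | hne
  · subst he; simp
  · obtain ⟨j, hj, hm⟩ := Finset.exists_max_image S a hne
    have := union_sum_aux a b w D S hnn hov j hj hm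
    omega

end Vale.Agent.P333.H14
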