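import Mathlib

namespace Vale.Agent.P333.H14

open Finset

/-- Finite family of non-nested intervals with small overlaps: total length is at most the size of the
union plus twice the overlap weights. Version with the last interval's weight saved. -/
theorem sum_le_union_aux {ι : Type*} [DecidableEq ι] (a b w : ι → ℕ) :
    ∀ (S : Finset ι), (∀ i ∈ S, a i ≤ b i) →
      (∀ i ∈ S, ∀ j ∈ S, i ≠ j → a i ≤ a j → a i < a j ∧ b i < b j) →
      (∀ i ∈ S, ∀ j ∈ S, i ≠ j → a i ≤ a j → b i ≤ a j + (w i + w j)) →
      ∀ j ∈ S, (∀ i ∈ S, a i ≤ a j) →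
      ∑ i ∈ S, (b i - a i) + w j ≤
        (S.biUnion fun i => Ico (a i) (b i)).card + 2 * ∑ i ∈ S, w i := by
  intro S
  induction S using Finset.strongInduction with
  | H S ih =>
    intro hab hnn hov j hj hmax
    have hSe : S = insert j (S.erase j) := (Finset.insert_erase hj).symm
    have hnot : j ∉ S.erase j := Finset.notMem_erase j S
    rw [hSe, Finset.sum_insert hnot, Finset.sum_insert hnot, Finset.biUnion_insert]
    rcases (S.erase j).eq_empty_or_nonempty with he | hne
    · rw [he]
      simp only [Finset.sum_empty, Finset.biUnion_empty, Finset.union_empty, Nat.card_Ico]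
      omega
    · obtain ⟨p, hp, hpm⟩ := Finset.exists_max_image (S.erase j) a hne
      have hpS : p ∈ S := Finset.mem_of_mem_erase hp
      have hpj : p ≠ j := Finset.ne_of_mem_erase hp
      have hss : S.erase j ⊂ S := Finset.erase_ssubset hj
      have h1 := ih (S.erase j) hss
        (fun i hi => hab i (Finset.mem_of_mem_erase hi))
        (fun i hi k hk => hnn i (Finset.mem_of_mem_erase hi) k (Finset.mem_of_mem_erase hk))
        (fun i hi k hk => hov i (Finset.mem_of_mem_erase hi) k (Finset.mem_of_mem_erase hk))
        p hp hpm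
      obtain ⟨hlt, hblt⟩ := hnn p hpS j hj hpj (hmax p hpS)
      have hovp := hov p hpS j hj hpj (hmax p hpS)
      have habj := hab j hj
      -- the new points
      have hsub : (Ico (max (a j) (b p)) (b j)) ∪ ((S.erase j).biUnion fun i => Ico (a i) (b i)) ⊆
          Ico (a j) (b j) ∪ ((S.erase j).biUnion fun i => Ico (a i) (b i)) := by
        apply Finset.union_subset_union _ (Finset.Subset.refl _)
        intro x hx
        rw [Finset.mem_Ico] at hx ⊢
        exact ⟨le_trans (le_max_left _ _) hx.1, hx.2⟩
      have hdis : Disjoint (Ico (max (a j) (b p)) (b j))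
          ((S.erase j).biUnion fun i => Ico (a i) (b i)) := by
        rw [Finset.disjoint_left]
        intro x hx hx2
        rw [Finset.mem_biUnion] at hx2
        obtain ⟨i, hi, hxi⟩ := hx2
        rw [Finset.mem_Ico] at hx hxi
        have hbi : b i ≤ b p := by
          by_cases hip : i = p
          · rw [hip]
          · exact le_of_lt (hnn i (Finset.mem_of_mem_erase hi) p hpS hip (hpm i hi)).2
        have := le_trans (le_max_right (a j) (b p)) hx.1
        omega
      have hcard := Finset.card_le_card hsub
      rw [Finset.card_union_of_disjoint hdis, Nat.card_Ico] at hcard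
      have hmx : max (a j) (b p) ≤ a j + (w p + w j) := by
        rw [max_le_iff]; constructor <;> omega
      omega

theorem sum_le_union {ι : Type*} [DecidableEq ι] (a b w : ι → ℕ) (S : Finset ι)
    (hab : ∀ i ∈ S, a i ≤ b i)
    (hnn : ∀ i ∈ S, ∀ j ∈ S, i ≠ j → a i ≤ a j → a i < a j ∧ b i < b j)
    (hov : ∀ i ∈ S, ∀ j ∈ S, i ≠ j → a i ≤ a j → b i ≤ a j + (w i + w j)) :
    ∑ i ∈ S, (b i - a i) ≤
      (S.biUnion fun i => Ico (a i) (b i)).card + 2 * ∑ i ∈ S, w i := by
  rcases S.eq_empty_or_nonempty with he | hne
  · subst he; simp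
  · obtain ⟨j, hj, hm⟩ := Finset.exists_max_image S a hne
    have := sum_le_union_aux a b w S hab hnn hov j hj hm
    omega

end Vale.Agent.P333.H14
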